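import Vale.Agent.P155.S862.AreaEV
import Vale.Agent.P155.S743.EvMain

/-!
# P155, TIGHT: `AREA1`
-/

namespace Vale.Agent.P155.S862

theorem area1 : S7.AREA1 := area1_of_EV S743.ev_holds

end Vale.Agent.P155.S862
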