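import Vale.Agent.P155.F.CwFinal
import Vale.Agent.P155.E4.Mass
import Vale.Agent.P155.B1b.PlaneMain

/-!
# P155, TIGHT, (S5): the two-strand error term

One bad event, uniform over all explored domains and all test functions.
-/

namespace Vale.Agent.P155.S862

open Finset Vale.Agent.P155 Skel SW J G45 E4

/-- the layer function of a mesoscopic density has local masses `M (n/κ)^γ (r/n)^γ` -/
theorem locMass_fL {γ M : ℝ} (hγ : 0 < γ) (hM : 0 ≤ M) {O : Set Pt} {n κ s : ℕ} {χ φ u : Pt → ℝ}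
    (hκ : 1 ≤ κ) (hκn : κ ≤ n) (hs : (s : ℝ) ≤ (n : ℝ) ^ (γ / 512))
    (htot : ∀ S : Finset Pt, ∑ x ∈ S, |fL O φ χ u x| ≤ M)
    (hball : ∀ (z : Pt) (ρ : ℕ), s ≤ ρ → ρ ≤ κ →
        ∑ x ∈ box z ρ, |fL O φ χ u x| ≤ M * ((ρ : ℝ) / κ) ^ γ) :
    LocMass (fun x => |fL O φ χ u x|) (M * ((n : ℝ) / κ) ^ γ) γ n ((n : ℝ) ^ (γ / 512)) := by
  have hκ0 : (0 : ℝ) < κ := by exact_mod_cast hκ
  have hn0 : (0 : ℝ) < n := by
    have : 0 < n := by omega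
    exact_mod_cast this
  constructor
  · intro x
    exact abs_nonneg _
  · intro x r hr hrn
    have e : M * ((n : ℝ) / κ) ^ γ * ((r : ℝ) / n) ^ γ = M * ((r : ℝ) / κ) ^ γ := by
      rw [mul_assoc, ← Real.mul_rpow (by positivity) (by positivity)]
      congr 2
      field_simp
    rw [e]
    rcases Nat.le_total r κ with h | h
    · refine hball x r ?_ h
      exact_mod_cast hs.trans hr
    · refine (htot _).trans ?_
      have h1 : (1 : ℝ) ≤ ((r : ℝ) / κ) ^ γ := by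
        apply Real.one_le_rpow _ hγ.le
        rw [le_div_iff₀ hκ0, one_mul]
        exact_mod_cast h
      nlinarith

open Classical in
/-- **(TS)** the two-strand error term: off one bad event, for all explored domains `O` and all
mesoscopic densities `φ` of scale `κ` at once, the layer function gives mass at most
`C (n/κ)^γ n^{-γ²/128}` to the points near which there are two strands. -/
theorem two_err : ∃ γ : ℝ, 0 < γ ∧ γ ≤ 1 ∧ ∀ a0 p C0 Cc : ℝ, 0 < a0 → 0 < p → 0 ≤ C0 →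
    ∃ C : ℝ, 0 < C ∧ ∀ (R : ℕ) (T : Temp), 1 ≤ R → Fits T R → ∀ (p0 : Pt) (n κ s ρ0 D : ℕ),
      (R : ℝ) ^ a0 ≤ n → n ≤ R → κ ≤ n → 1 ≤ s → 8 * s ≤ κ → (s : ℝ) ≤ (n : ℝ) ^ (γ / 512) →
      (D : ℝ) + 1 ≤ (n : ℝ) ^ (γ / 512) → (n : ℝ) ^ (1 - γ ^ 2 / 1024) ≤ ρ0 →
      Pr T.V (fun ω => ∃ (O : Set Pt) (q : Pt) (φ v χ : Pt → ℝ), O.Finite ∧ CPr O ∧ q ∉ O ∧
        IsCut O s Cc χ ∧ (∀ y, |φ y| ≤ dens C0 q κ y) ∧ IsGreen O φ v ∧
        C * (((n : ℝ) / κ) ^ γ * (n : ℝ) ^ (-(γ ^ 2 / 128))) <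
          ∑ x ∈ (box p0 n).filter (fun x => C * ρ0 ≤ dF T.faceSet x ∧
            TwoVisit (fun _ : Fin 1 => box x (D + 1)) (res T.V (box x ρ0) ω)),
            |fL O φ χ v x|) ≤ C * (R : ℝ) ^ (-p) := by
  obtain ⟨A, hA⟩ : ∃ A, IsPlane A := ⟨B1b.Apl, B1b.isPlane_Apl⟩
  obtain ⟨γ, hγ, hγ1, hmass⟩ := mass_meso
  refine ⟨γ, hγ, hγ1, ?_⟩
  intro a0 p C0 Cc ha0 hp hC0
  obtain ⟨M, hM, hmass⟩ := hmass C0 Cc hC0
  obtain ⟨C1, hC1, hcw⟩ := cw_final hA hγ hγ1 hp ha0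
  refine ⟨C1 * (M + 1), by positivity, ?_⟩
  intro R T hR hfit p0 n κ s ρ0 D hn hnR hκn hs h8 hsn hD hρ0
  have hRp : (0 : ℝ) ≤ (R : ℝ) ^ (-p) := Real.rpow_nonneg (Nat.cast_nonneg _) _
  have hκ : 1 ≤ κ := by omega
  have h1 := hcw R T hR hfit p0 n ρ0 (D + 1) hn hnR hρ0 (by push_cast; exact hD)
  refine le_trans (E.Pr_mono ?_) (h1.trans (mul_le_mul_of_nonneg_right ?_ hRp))
  · rintro ω - ⟨O, q, φ, v, χ, hO, hCP, hq, hχ, hφ, hv, hlt⟩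
    obtain ⟨m1, m2, -⟩ := hmass O q κ s χ φ v hO hCP hq hκ hs h8 hχ hφ hv
    refine ⟨fun x => |fL O φ χ v x|, M * ((n : ℝ) / κ) ^ γ,
      locMass_fL hγ hM hκ hκn hsn m1 m2, ?_⟩
    have hpos : 0 ≤ ((n : ℝ) / κ) ^ γ * (n : ℝ) ^ (-(γ ^ 2 / 128)) := by positivity
    refine lt_of_le_of_lt ?_ (lt_of_lt_of_le hlt ?_)
    · have h2 : C1 * (M * ((n : ℝ) / κ) ^ γ * (n : ℝ) ^ (-(γ ^ 2 / 128))) =
          C1 * M * (((n : ℝ) / κ) ^ γ * (n : ℝ) ^ (-(γ ^ 2 / 128))) := by ring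
      rw [h2]
      apply mul_le_mul_of_nonneg_right _ hpos
      nlinarith
    · apply sum_le_sum_of_subset_of_nonneg
      · intro x hx
        rw [mem_filter] at hx ⊢
        refine ⟨hx.1, le_trans ?_ hx.2.1, twoStr_iff.2 hx.2.2⟩
        have h3 : (0 : ℝ) ≤ ρ0 := Nat.cast_nonneg _
        have h4 : C1 ≤ C1 * (M + 1) := by nlinarith
        exact mul_le_mul_of_nonneg_right h4 h3
      · intro x _ _
        exact abs_nonneg _
  · nlinarith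

end Vale.Agent.P155.S862
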