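import Vale.Agent.P155.S862.Inst

/-!
# P155, TIGHT, (S5): energy of the test function of `c_j` at the times `J ≥ j`
-/

namespace Vale.Agent.P155.S862

open Finset SW HT T802 J H904 H12 G45 T905

theorem energy_sweep : ∃ γ : ℝ, 0 < γ ∧ γ ≤ 1 / 2 ∧ ∃ K : ℝ, 0 < K ∧
    ∀ (T : Temp) (Q : Cap) (t0 yb xa : ℤ) (m κ d ρ0 D : ℕ), Setup T Q t0 yb xa m κ d ρ0 D →
    ∀ ω ∈ DD T.V, ∀ j J : ℕ, 1 ≤ j → j ≤ J → Q.Has T.V t0 ω j → 5 ≤ κ → 1 ≤ m →
    ∀ u : Pt → ℝ, IsGreen (OE T (Q.Ej T.V t0 ω J)) (phi Q T.V t0 xa κ m ω j) u →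
      pair (phi Q T.V t0 xa κ m ω j) u ≤ K * ((m : ℝ)⁻¹) ^ γ := by
  obtain ⟨γ, hγ, hγ1, K, hK, h⟩ := pt2
  refine ⟨γ, hγ, hγ1, K * 576000000 ^ 2, by positivity, ?_⟩
  intro T Q t0 yb xa m κ d ρ0 D S ω hω j J hj hjJ hH hκ hm u hu
  have g := cj_good hj hH
  have hκ0 : (0 : ℝ) < κ := by
    have : 0 < κ := by omega
    exact_mod_cast this
  have hm0 : (0 : ℝ) < m := by exact_mod_cast hm
  have h1 := h (OE T (Q.Ej T.V t0 ω J)) (finite_OE T _) (T862.cp_OE hω S.h0 J) m (6 * κ) (6 * κ)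
    576000000 (fun i : Fin m => pS (Q.cj T.V t0 ω j) xa κ i)
    (fun i : Fin m => S743.bump κ (ctr (Q.cj T.V t0 ω j) xa κ i)) (phi Q T.V t0 xa κ m ω j) u hm
    (by omega) le_rfl (by norm_num) (fun i => pS_notMem S hω hj hjJ hH i.2)
    (fun i k => (Nat.mul_le_mul_left _ (by omega)).trans (sep_pS S hω g i.2 k.2))
    (fun i x => S743.bump_nonneg _ _ _)
    (fun i x => (S743.bump_le hκ _ _).trans_eq (by push_cast; field_simp; norm_num))
    (fun i x hx => ctr_dn S hω g i.2 (by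
      have hb := S743.bump_supp hκ hx
      rw [mem_box_coord] at *
      push_cast
      omega))
    (fun x => rfl) hu
  refine h1.trans_eq ?_
  congr 2
  push_cast
  field_simp

end Vale.Agent.P155.S862
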