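import Vale.Agent.P155.S743.EV

/-!
# P155, TIGHT: `AREA1` from one evaluation
-/

namespace Vale.Agent.P155.S862

open Finset J T905 HT T802 T862 G45 S743

/-- bookkeeping of constants -/
theorem area_consts {b c C a0 : ℝ} (hb : 0 < b) (hC : 0 < C) :
    ∃ C' : ℝ, 0 < C' ∧ ∀ (R n : ℕ) (w : ℝ), 1 ≤ R → (R : ℝ) ^ a0 ≤ n → 0 < w → w ≤ 1 →
    (C * w ^ b + C * (160 / w) ^ C * (R : ℝ) ^ (-c) ≤
      C' * w ^ b + C' * w ^ (-C') * (R : ℝ) ^ (-(min c a0))) ∧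
    (1 ≤ C' * w ^ b + C' * w ^ (-C') * (R : ℝ) ^ (-(min c a0)) ∨
      (w ≤ 1 / 2000000 ∧ 400 ≤ w * n ∧ C * w ^ b ≤ 1 / 16 ∧
        C * (160 / w) ^ C * (R : ℝ) ^ (-c) ≤ 1 / 16)) := by
  obtain ⟨w0, hw0⟩ : ∃ w0 : ℝ, w0 = 1 / 2000000 := ⟨_, rfl⟩
  have hw00 : 0 < w0 := by rw [hw0]; norm_num
  obtain ⟨M, hM⟩ : ∃ M : ℝ, M = (160 : ℝ) ^ C := ⟨_, rfl⟩
  have hM0 : 0 < M := by rw [hM]; positivity
  obtain ⟨W, hW⟩ : ∃ W : ℝ, W = w0 ^ (-b) := ⟨_, rfl⟩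
  have hW0 : 0 < W := by rw [hW]; exact Real.rpow_pos_of_pos hw00 _
  obtain ⟨C', hC'⟩ : ∃ C' : ℝ, C' = 800 + C + 16 * C + W + 16 * C * M := ⟨_, rfl⟩
  have hCM : 0 < 16 * C * M := by positivity
  have hC'0 : 0 < C' := by rw [hC']; linarith
  have hC'1 : 800 ≤ C' := by rw [hC']; linarith
  have hC'2 : C ≤ C' := by rw [hC']; linarith
  have hC'3 : 16 * C ≤ C' := by rw [hC']; linarith
  have hC'4 : W ≤ C' := by rw [hC']; linarith
  have hC'5 : 16 * C * M ≤ C' := by rw [hC']; linarith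
  clear hC'
  refine ⟨C', hC'0, ?_⟩
  intro R n w hR hn hw hw1
  have hR1 : (1 : ℝ) ≤ R := by exact_mod_cast hR
  have hR0 : (0 : ℝ) < R := by linarith
  have hRc : (R : ℝ) ^ (-c) ≤ (R : ℝ) ^ (-(min c a0)) :=
    Real.rpow_le_rpow_of_exponent_le hR1 (neg_le_neg (min_le_left _ _))
  have hRc0 : 0 < (R : ℝ) ^ (-(min c a0)) := Real.rpow_pos_of_pos hR0 _
  have hRc1 : 0 < (R : ℝ) ^ (-c) := Real.rpow_pos_of_pos hR0 _
  have hwb : 0 < w ^ b := Real.rpow_pos_of_pos hw _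
  have hwC : w ^ (-C) ≤ w ^ (-C') := Real.rpow_le_rpow_of_exponent_ge hw hw1 (neg_le_neg hC'2)
  have hwC0 : 0 < w ^ (-C) := Real.rpow_pos_of_pos hw _
  have hwC'0 : 0 < w ^ (-C') := Real.rpow_pos_of_pos hw _
  have t1 : 0 ≤ C' * w ^ b := (mul_pos hC'0 hwb).le
  have t2 : 0 ≤ C' * w ^ (-C') * (R : ℝ) ^ (-(min c a0)) := by positivity
  have hk : (160 / w) ^ C = M * w ^ (-C) := by
    rw [Real.div_rpow (by norm_num) hw.le, Real.rpow_neg hw.le, hM]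
    rfl
  have hmaj : 16 * (C * (160 / w) ^ C * (R : ℝ) ^ (-c)) ≤
      C' * w ^ (-C') * (R : ℝ) ^ (-(min c a0)) := by
    rw [hk]
    calc 16 * (C * (M * w ^ (-C)) * (R : ℝ) ^ (-c)) = (16 * C * M) * w ^ (-C) * (R : ℝ) ^ (-c) := by
          ring
      _ ≤ C' * w ^ (-C') * (R : ℝ) ^ (-(min c a0)) :=
          mul_le_mul (mul_le_mul hC'5 hwC hwC0.le hC'0.le) hRc hRc1.le
            (mul_nonneg hC'0.le hwC'0.le)
  have hpos : 0 ≤ C * (160 / w) ^ C * (R : ℝ) ^ (-c) := by positivity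
  refine ⟨?_, ?_⟩
  · have e4 : C * w ^ b ≤ C' * w ^ b := mul_le_mul_of_nonneg_right hC'2 hwb.le
    linarith
  by_cases c1 : w ≤ w0
  swap
  · left
    push Not at c1
    have h1 : w0 ^ b ≤ w ^ b := Real.rpow_le_rpow hw00.le c1.le hb.le
    have h2 : W * w0 ^ b = 1 := by
      rw [hW, ← Real.rpow_add hw00]; simp
    have h3 : 1 ≤ C' * w ^ b := by
      rw [← h2]
      exact mul_le_mul hC'4 h1 (Real.rpow_nonneg hw00.le _) hC'0.le
    linarith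
  by_cases c2 : 400 ≤ w * n
  swap
  · left
    push Not at c2
    have h1 : (R : ℝ) ^ a0 ≤ 400 * w⁻¹ := by
      refine hn.trans ?_
      rw [← div_eq_mul_inv, le_div_iff₀ hw]
      linarith
    have h2 : w⁻¹ ≤ w ^ (-C') := by
      rw [← Real.rpow_neg_one]
      exact Real.rpow_le_rpow_of_exponent_ge hw hw1 (by linarith)
    have h3 : (R : ℝ) ^ (min c a0) ≤ (R : ℝ) ^ a0 :=
      Real.rpow_le_rpow_of_exponent_le hR1 (min_le_right _ _)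
    have h4 : (R : ℝ) ^ (min c a0) ≤ C' * w ^ (-C') := by
      have h5 : 400 * w⁻¹ ≤ C' * w ^ (-C') :=
        mul_le_mul (by linarith) h2 (inv_pos.2 hw).le hC'0.le
      linarith
    have h5 : (R : ℝ) ^ (min c a0) * (R : ℝ) ^ (-(min c a0)) = 1 := by
      rw [← Real.rpow_add hR0]; simp
    have h6 : 1 ≤ C' * w ^ (-C') * (R : ℝ) ^ (-(min c a0)) := by
      rw [← h5]
      exact mul_le_mul_of_nonneg_right h4 hRc0.le
    linarith
  by_cases c3 : C * w ^ b ≤ 1 / 16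
  swap
  · left
    push Not at c3
    have : 16 * C * w ^ b ≤ C' * w ^ b := mul_le_mul_of_nonneg_right hC'3 hwb.le
    linarith
  by_cases c4 : C * (160 / w) ^ C * (R : ℝ) ^ (-c) ≤ 1 / 16
  swap
  · left
    push Not at c4
    linarith
  exact Or.inr ⟨by rw [← hw0]; exact c1, c2, c3, c4⟩

/-- choice of the radius of the bumps -/
theorem exists_kappa {w : ℝ} {n : ℕ} (hw : 0 < w) (hw1 : w ≤ 1) (h : 400 ≤ w * n) :
    ∃ κ : ℕ, 5 ≤ κ ∧ 80 * κ ≤ n ∧ (κ : ℝ) / n ≤ w ∧ (n : ℝ) / κ ≤ 160 / w := by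
  have hn0 : (0 : ℝ) < n := by
    by_contra hcon
    have : (n : ℝ) = 0 := le_antisymm (not_lt.1 hcon) (Nat.cast_nonneg _)
    rw [this, mul_zero] at h
    linarith
  have hwn : 0 ≤ w * n / 80 := by positivity
  have hwn' : w * n ≤ n := mul_le_of_le_one_left hn0.le hw1
  have hκle := Nat.floor_le hwn
  have hκlt := Nat.lt_floor_add_one (w * n / 80)
  generalize ⌊w * n / 80⌋₊ = κ at *
  have hκ4 : (4 : ℝ) < κ := by linarith
  have hκ5 : 5 ≤ κ := by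
    have : 4 < κ := by exact_mod_cast hκ4
    omega
  have hκ0 : (0 : ℝ) < κ := by linarith
  refine ⟨κ, hκ5, ?_, ?_, ?_⟩
  · have : (80 * κ : ℝ) ≤ n := by linarith
    exact_mod_cast this
  · rw [div_le_iff₀ hn0]
    linarith
  · rw [div_le_div_iff₀ hκ0 hw]
    linarith

/-- the mass of the test function inside a loop of small area -/
theorem mass_small {T : Temp} {Q : Cap} {t0 yb mL mR : ℤ} {κ d ρ0 D n : ℕ} {ω : Conf}
    (hm : mL + n ≤ mR)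
    (S : Setup T Q t0 yb mL (mm mL mR κ) κ d ρ0 D) (hω : ω ∈ DD T.V) {K : Set Pt}
    (g : Q.Good T.V ω K) (hκ : 5 ≤ κ) (h80 : 80 * κ ≤ n) {w : ℝ} (hw : 0 < w)
    (hw0 : w ≤ 1 / 2000000) (hnκ : (n : ℝ) / κ ≤ 160 / w) {L : Set Pt}
    (hA : (S7.area Q ω L : ℝ) ≤ w ^ 3 * (n : ℝ) ^ 2) :
    mass ω (T802.phi K mL (mm mL mR κ) κ) L ≤ 1 / 16 := by
  have hκ0 : (0 : ℝ) < κ := by
    have : 0 < κ := by omega
    exact_mod_cast this
  have hn0 : (0 : ℝ) < n := by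
    have : 0 < n := by omega
    exact_mod_cast this
  obtain ⟨hm1, -, hm3⟩ := mm_spec (κ := κ) (by omega) (by omega : 16 * κ ≤ n) hm
  have hmass := mass_area S hω g hκ hm1 L
  have h1 : ((mm mL mR κ : ℝ) * (κ : ℝ) ^ 2)⁻¹ ≤ 32 / ((n : ℝ) * κ) := by
    rw [mul_inv]
    calc ((mm mL mR κ : ℝ))⁻¹ * ((κ : ℝ) ^ 2)⁻¹ ≤ 32 * ((κ : ℝ) / n) * ((κ : ℝ) ^ 2)⁻¹ :=
          mul_le_mul_of_nonneg_right hm3 (by positivity)
      _ = 32 / ((n : ℝ) * κ) := by field_simp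
  have h2 : ((mm mL mR κ : ℝ) * (κ : ℝ) ^ 2)⁻¹ * (S7.area Q ω L : ℝ) ≤
      32 / ((n : ℝ) * κ) * (w ^ 3 * (n : ℝ) ^ 2) :=
    mul_le_mul h1 hA (Nat.cast_nonneg _) (by positivity)
  have h3 : 32 / ((n : ℝ) * κ) * (w ^ 3 * (n : ℝ) ^ 2) = 32 * w ^ 3 * ((n : ℝ) / κ) := by
    field_simp
  have h4 : 32 * w ^ 3 * ((n : ℝ) / κ) ≤ 32 * w ^ 3 * (160 / w) :=
    mul_le_mul_of_nonneg_left hnκ (by positivity)
  have h5 : 32 * w ^ 3 * (160 / w) = 5120 * w ^ 2 := by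
    field_simp
    norm_num
  have h6 : w ^ 2 ≤ (1 / 2000000) ^ 2 := pow_le_pow_left₀ hw.le hw0 2
  refine hmass.trans ?_
  have h8 : ((1 : ℝ) / 2000000) ^ 2 = 1 / 4000000000000 := by norm_num
  rw [h8] at h6
  linarith

theorem area1_of_EV (hEV : EV) : S7.AREA1 := by
  classical
  intro a0 ha0 A
  obtain ⟨b, c, C, hb, hc, hC, hEV⟩ := hEV a0 ha0 A
  obtain ⟨C', hC'0, hcon⟩ := area_consts (c := c) (a0 := a0) hb hC
  refine ⟨b, min c a0, C', hb, lt_min hc ha0, hC'0, ?_⟩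
  intro T R n Q t0 mL mR hR hfit hn G w j hw hw1 hj
  obtain ⟨hmaj, h | ⟨hw0, hwn, h1, h2⟩⟩ := hcon R n w hR hn hw hw1
  · exact (E.Pr_le_one _ _).trans h
  obtain ⟨κ, hκ5, h80, hκn, hnκ⟩ := exists_kappa hw hw1 hwn
  have S := mk_setup (ρ0 := 0) (D := 0) G (by omega : 1 ≤ κ) h80 le_rfl (by omega)
  have e1 : C * ((κ : ℝ) / n) ^ b ≤ C * w ^ b :=
    mul_le_mul_of_nonneg_left (Real.rpow_le_rpow (by positivity) hκn hb.le) hC.le
  have e2 : C * ((n : ℝ) / κ) ^ C * (R : ℝ) ^ (-c) ≤ C * (160 / w) ^ C * (R : ℝ) ^ (-c) :=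
    mul_le_mul_of_nonneg_right (mul_le_mul_of_nonneg_left
      (Real.rpow_le_rpow (by positivity) hnκ hC.le) hC.le) (Real.rpow_nonneg (Nat.cast_nonneg _) _)
  have hmain := hEV T R n Q t0 mL mR hR hfit hn G κ j j (by omega) h80 hj le_rfl
    (fun ω => S7.own Q T.V t0 ω j) (fun ω hω h => ⟨(own_loop hω hj h).1, (own_loop hω hj h).2.2⟩)
  refine (E.Pr_mono ?_).trans (hmain.trans ((add_le_add e1 e2).trans hmaj))
  rintro ω hω ⟨hH, hU, hA⟩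
  refine ⟨hH, ?_⟩
  have hup : upS Q ω (Q.cj T.V t0 ω j) (S7.own Q T.V t0 ω j) := hU
  rw [if_pos hup]
  have hbad : ∑ i : Fin (mm mL mR κ), ((badF T Q t0 ω j j mL κ i).card : ℝ) = 0 := by
    apply Finset.sum_eq_zero
    intro i _
    rw [badF_self S hω hj hH i.2]
    simp
  rw [hbad, mul_zero, mul_zero, add_zero]
  have h7 := mass_small G.m S hω (cj_good hj hH) hκ5 h80 hw hw0 hnκ hA
  rw [lt_abs]
  right
  linarith

end Vale.Agent.P155.S862
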