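import Vale.Agent.P155.S862.Rough
import Vale.Agent.P155.T905.Eval

/-!
# P155, TIGHT, (S5): one evaluation with a remainder, deterministic part

As `T905.eval_det`, but the bumps may have a part (contained in the finite sets `Bd i`) which is not
above the explored strand.
-/

namespace Vale.Agent.P155.S862

open Finset SW HT T802 J H904 H12 G45 T905

open Classical in
/-- the part of `b` in `I` -/
noncomputable def gpart (I : Set Pt) (b : Pt → ℝ) (x : Pt) : ℝ := if x ∈ I then b x else 0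

open Classical in
/-- the part of `b` off `I` -/
noncomputable def rpart (I : Set Pt) (b : Pt → ℝ) (x : Pt) : ℝ := if x ∈ I then 0 else b x

/-- A family of bumps near the points `p i` off `O`, all of whose mass is in `I` up to the bad sets
`Bd i`. -/
structure BumpSys2 {m : ℕ} (O I Rg : Set Pt) (s : ℕ) (p : Fin m → Pt) (b : Fin m → Pt → ℝ)
    (F : Fin m → Finset Pt) (N : Fin m → Set Pt) (Bd : Fin m → Finset Pt) (ρ d : ℕ) (cb : ℝ) :
    Prop where
  off : ∀ i, p i ∉ O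
  nonneg : ∀ i x, 0 ≤ b i x
  sup : ∀ i x, b i x ≤ cb
  supp : ∀ i x, b i x ≠ 0 → x ∈ F i
  reg : ∀ i x, b i x ≠ 0 → x ∈ Rg
  sum : ∀ i, ∑ x ∈ F i, b i x = 1
  near : ∀ i x, b i x ≠ 0 → dn (p i) x ≤ ρ
  good : ∀ i x, b i x ≠ 0 → x ∈ I → x ∈ O → x ∈ N i
  nb : ∀ i, IsNb O (p i) d (N i)
  bad : ∀ i x, b i x ≠ 0 → x ∉ I → x ∈ Bd i
  box : ∀ i x y, s ≤ dF O x → b i y ≠ 0 → y ∉ I → dn x y < s → ∀ z, dn x z < s → z ∈ Bd i

theorem gpart_add_rpart (I : Set Pt) (b : Pt → ℝ) (x : Pt) : gpart I b x + rpart I b x = b x := by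
  unfold gpart rpart
  by_cases h : x ∈ I <;> simp [h]

open Classical in
/-- one bump above the strand -/
theorem one_bump : ∃ β : ℝ, 0 < β ∧ ∃ K : ℝ, 0 < K ∧
    ∀ (T : Temp) (V : Finset Pt) (ω : Conf), ω ∈ DD V → ∀ (W E c I Rg L : Set Pt) (up : Prop),
    L ∈ Loops ω → Near T ω E c I Rg L up →
    (∀ a ∈ E, ∀ b, b ∉ W → (b = ω.1 a ∨ b = ω.2 a) → b ∈ E) →
    ∀ (hO : (OE T E).Finite), CPr (OE T E) → ∀ (p : Pt) (g : Pt → ℝ)
      (N : Set Pt) (ρ d s D : ℕ) (C0 : ℝ) (χ v : Pt → ℝ) (B : Pt → Finset Pt),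
    p ∉ OE T E → IsNb (OE T E) p d N → (∀ x, 0 ≤ g x) → (∀ x ∈ OE T E, g x ≠ 0 → dn p x ≤ ρ) →
    (∀ x ∈ OE T E, g x ≠ 0 → x ∈ N) → 1 ≤ s → s ≤ ρ → 3 * ρ ≤ d → IsCut (OE T E) s C0 χ →
    IsGreen (OE T E) g v → 2 * s + 1 ≤ D →
    (∀ x ∈ N, x ∈ I ∧ (box x D : Set Pt) ⊆ Rg ∧ (∀ z ∈ B x, z ∉ W) ∧
      (∃ q ∈ L, q ∉ B x) ∧ (∀ v' ∈ c, ∃ q, Same ω v' q ∧ q ∉ B x)) →
    |mass ω (fL (OE T E) g χ v) L - (if up then 1 else 0) * ∑ x ∈ hO.toFinset, g x| ≤
      K * (C0 + 1) * (((ρ : ℝ) + 1) / ((d : ℝ) + 1)) ^ β * ∑ x ∈ hO.toFinset, g x +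
      ∑ x ∈ hO.toFinset, |fL (OE T E) g χ v x| *
        (if x ∈ N ∧ TwoVisit (fun _ : Fin 1 => box x (D + 1)) (res V (B x) ω) then 1 else 0) := by
  obtain ⟨β, hβ, K, hK, hpt⟩ := pt1
  refine ⟨β, hβ, K, hK, ?_⟩
  intro T V ω hω W E c I Rg L up hL hNear hE hO hCP p g N ρ d s D C0 χ v B hp hNb hg0 hgρ hgN hs hsρ
    hρd hχ hv hD hgeo
  have hz := fL_zero_off hO hs hχ hv
  have hlay := layer_mass hω (N := N) hL hNear hE hz (D := D) B
    (fun x hx => ⟨(hgeo x hx).1, (hgeo x hx).2.1⟩) (fun x hx hne => ?_)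
    (fun x hx => (hgeo x hx).2.2.1) (fun x hx => (hgeo x hx).2.2.2.1)
    (fun x hx => (hgeo x hx).2.2.2.2)
  · rw [fL_total hO hs hχ hv (by simp)] at hlay
    refine hlay.trans ?_
    have hout := (hpt (OE T E) hO hCP p N ρ d s C0 g v χ hp hNb hs hsρ hρd
      hχ hv (fun x _ => hg0 x) (fun x hx h => hgρ x hx h)
      (fun x hx h => hgN x hx h)).1 (hO.toFinset.filter (fun x => x ∉ N))
      (fun x hx => (Finset.mem_filter.1 hx).2)
    rw [Finset.sum_filter] at hout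
    refine le_trans ?_ (add_le_add hout le_rfl)
    rw [← Finset.sum_add_distrib]
    apply Finset.sum_le_sum
    intro x _
    by_cases hx : x ∈ N
    · simp [hx]
    · simp [hx]
  · obtain ⟨ha, hb⟩ := fL_supp (exists_notMem hO) hs hχ hv hne
    obtain ⟨y, hy, hxy⟩ := exists_dF (exists_notMem hO) x
    refine ⟨ha, y, hy, ?_⟩
    have hbx : y ∈ box x (dn x y) := by
      rw [mem_box', abs_sub_comm y.1, abs_sub_comm y.2]
      unfold dn dinf
      constructor <;> omega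
    have hmono : box x (dn x y) ⊆ box x D := by
      intro z hz
      rw [mem_box'] at *
      constructor <;> omega
    exact hmono hbx

theorem fL_mean2 {O : Set Pt} {χ : Pt → ℝ} {m : ℕ} (b v : Fin m → Pt → ℝ) (x : Pt) :
    fL O (fun y => (m : ℝ)⁻¹ * ∑ i, b i y) χ (fun y => (m : ℝ)⁻¹ * ∑ i, v i y) x =
      (m : ℝ)⁻¹ * ∑ i, fL O (b i) χ (v i) x := fL_mean b v x

theorem fL_add {O : Set Pt} {χ : Pt → ℝ} (b b' v v' : Pt → ℝ) (x : Pt) :
    fL O (fun y => b y + b' y) χ (fun y => v y + v' y) x = fL O b χ v x + fL O b' χ v' x := by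
  classical
  unfold fL lap
  by_cases hx : x ∈ O
  · simp only [if_pos hx]; ring
  · simp only [if_neg hx]; ring

theorem isGreen_add {O : Set Pt} {φ ψ u v : Pt → ℝ} (hu : IsGreen O φ u) (hv : IsGreen O ψ v) :
    IsGreen O (fun x => φ x + ψ x) (fun x => u x + v x) := by
  constructor
  · intro x hx
    rw [hu.off x hx, hv.off x hx, add_zero]
  · intro x hx
    have h1 := hu.eq x hx
    have h2 := hv.eq x hx
    unfold lap at *
    linarith

theorem isGreen_mean {O : Set Pt} {m : ℕ} {b v : Fin m → Pt → ℝ} (h : ∀ i, IsGreen O (b i) (v i)) :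
    IsGreen O (fun x => (m : ℝ)⁻¹ * ∑ i, b i x) (fun x => (m : ℝ)⁻¹ * ∑ i, v i x) := by
  constructor
  · intro x hx
    rw [Finset.sum_eq_zero (fun i _ => (h i).off x hx), mul_zero]
  · intro x hx
    have : lap (fun x => (m : ℝ)⁻¹ * ∑ i, v i x) x = (m : ℝ)⁻¹ * ∑ i, lap (v i) x := by
      unfold lap
      simp only [Finset.sum_add_distrib, Finset.sum_sub_distrib, ← Finset.mul_sum]
      ring
    rw [this, ← mul_neg, ← Finset.sum_neg_distrib]
    congr 1
    exact Finset.sum_congr rfl fun i _ => (h i).eq x hx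

open Classical in
/-- **(S5) one evaluation with remainder, deterministic.** -/
theorem eval_det2 : ∃ β : ℝ, 0 < β ∧ ∃ K : ℝ, 0 < K ∧
    ∀ (T : Temp) (V : Finset Pt) (ω : Conf), ω ∈ DD V → ∀ (W E c I Rg L : Set Pt) (up : Prop),
    L ∈ Loops ω → Near T ω E c I Rg L up →
    (∀ a ∈ E, ∀ b, b ∉ W → (b = ω.1 a ∨ b = ω.2 a) → b ∈ E) →
    ∀ (hO : (OE T E).Finite), CPr (OE T E) → ∀ (m : ℕ) (p : Fin m → Pt) (b : Fin m → Pt → ℝ)
      (F : Fin m → Finset Pt) (N : Fin m → Set Pt) (Bd : Fin m → Finset Pt) (ρ d s D : ℕ)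
      (cb C0 : ℝ) (χ u : Pt → ℝ) (v : Fin m → Pt → ℝ) (B : Pt → Finset Pt), 1 ≤ m → 0 ≤ cb →
    BumpSys2 (OE T E) I Rg s p b F N Bd ρ d cb → 1 ≤ s → s ≤ ρ → 3 * ρ ≤ d →
    IsCut (OE T E) s C0 χ →
    IsGreen (OE T E) (fun x => (m : ℝ)⁻¹ * ∑ i, b i x) u →
    (∀ i, IsGreen (OE T E) (gpart I (b i)) (v i)) →
    2 * s + 1 ≤ D →
    (∀ i, ∀ x ∈ N i, x ∈ I ∧ (box x D : Set Pt) ⊆ Rg ∧ (∀ z ∈ B x, z ∉ W) ∧
      (∃ q ∈ L, q ∉ B x) ∧ (∀ v' ∈ c, ∃ q, Same ω v' q ∧ q ∉ B x)) →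
    |mass ω (fun x => (m : ℝ)⁻¹ * ∑ i, b i x) L - (if up then 1 else 0)| ≤
      |mass ω (lap (fun y => χ y * u y)) L| +
      K * (C0 + 1) * (((ρ : ℝ) + 1) / ((d : ℝ) + 1)) ^ β +
      (m : ℝ)⁻¹ * ∑ i, ∑ x ∈ hO.toFinset, |fL (OE T E) (gpart I (b i)) χ (v i) x| *
        (if x ∈ N i ∧ TwoVisit (fun _ : Fin 1 => box x (D + 1)) (res V (B x) ω) then 1 else 0) +
      K * (C0 + 1) * (cb * ((m : ℝ)⁻¹ * ∑ i, ((Bd i).card : ℝ))) := by
  obtain ⟨β, hβ, K1, hK1, hone⟩ := one_bump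
  obtain ⟨K2, hK2, hrough⟩ := fL_rough
  refine ⟨β, hβ, K1 + K2 + 1, by positivity, ?_⟩
  intro T V ω hω W E c I Rg L up hL hNear hE hO hCP m p b F N Bd ρ d s D cb C0 χ u v B hm hcb hB hs
    hsρ hρd hχ hu hv hD hgeo
  have hm0 : (0 : ℝ) < m := by exact_mod_cast hm
  have hC0 := cut_C0_nonneg hχ
  set U : ℝ := if up then 1 else 0 with hU
  have hU01 : 0 ≤ U ∧ U ≤ 1 := by rw [hU]; split_ifs <;> norm_num
  set q : ℝ := (((ρ : ℝ) + 1) / ((d : ℝ) + 1)) ^ β with hq
  have hq0 : 0 ≤ q := by positivity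
  -- potentials of the remainders
  choose w hw using fun i => exists_green hO (rpart I (b i))
  have hvw : ∀ i, IsGreen (OE T E) (b i) (fun x => v i x + w i x) := fun i => by
    have h := isGreen_add (hv i) (hw i)
    have e : (fun x => gpart I (b i) x + rpart I (b i) x) = b i := by
      funext x; exact gpart_add_rpart I (b i) x
    rwa [e] at h
  have huu : u = fun x => (m : ℝ)⁻¹ * ∑ i, (v i x + w i x) :=
    green_unique hO hu (isGreen_mean hvw)
  -- the common finite set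
  set G : Finset Pt := hO.toFinset ∪ Finset.univ.biUnion F with hG
  have hOG : hO.toFinset ⊆ G := Finset.subset_union_left
  have hFG : ∀ i, F i ⊆ G := fun i => (Finset.subset_biUnion_of_mem F (Finset.mem_univ i)).trans
    Finset.subset_union_right
  have hbG : ∀ i x, x ∉ G → b i x = 0 := fun i x hx => by
    by_contra h
    exact hx (hFG i (hB.supp i x h))
  have hg0 : ∀ i x, 0 ≤ gpart I (b i) x := fun i x => by
    unfold gpart; split_ifs
    · exact hB.nonneg i x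
    · exact le_rfl
  have hr0 : ∀ i x, 0 ≤ rpart I (b i) x := fun i x => by
    unfold rpart; split_ifs
    · exact le_rfl
    · exact hB.nonneg i x
  have hgb : ∀ i x, gpart I (b i) x ≠ 0 → x ∈ I ∧ b i x ≠ 0 := fun i x h => by
    unfold gpart at h
    by_cases hx : x ∈ I
    · rw [if_pos hx] at h; exact ⟨hx, h⟩
    · rw [if_neg hx] at h; exact absurd rfl h
  have hrb : ∀ i x, rpart I (b i) x ≠ 0 → x ∉ I ∧ b i x ≠ 0 := fun i x h => by
    unfold rpart at h
    by_cases hx : x ∈ I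
    · rw [if_pos hx] at h; exact absurd rfl h
    · rw [if_neg hx] at h; exact ⟨hx, h⟩
  -- sums over `G`
  have hsumb : ∀ i, ∑ x ∈ G, b i x = 1 := fun i => by
    rw [← hB.sum i]
    symm
    apply Finset.sum_subset (hFG i)
    intro x _ hx
    by_contra h
    exact hx (hB.supp i x h)
  have hsumr : ∀ i, ∑ x ∈ G, rpart I (b i) x ≤ cb * (Bd i).card := fun i => by
    calc ∑ x ∈ G, rpart I (b i) x ≤ ∑ x ∈ G, (if x ∈ Bd i then cb else 0) := by
          apply Finset.sum_le_sum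
          intro x _
          by_cases h : rpart I (b i) x = 0
          · rw [h]; split_ifs
            · exact hcb
            · exact le_rfl
          · obtain ⟨h1, h2⟩ := hrb i x h
            rw [if_pos (hB.bad i x h2 h1)]
            unfold rpart
            rw [if_neg h1]
            exact hB.sup i x
      _ ≤ cb * (Bd i).card := by
          rw [← Finset.sum_filter, Finset.sum_const, nsmul_eq_mul, mul_comm]
          apply mul_le_mul_of_nonneg_left _ hcb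
          exact_mod_cast Finset.card_le_card (fun x hx => (Finset.mem_filter.1 hx).2)
  set e : Pt → ℝ := fun x => if surr ω L x then 1 else 0 with he
  have he01 : ∀ x, 0 ≤ e x ∧ e x ≤ 1 := fun x => by simp only [he]; split_ifs <;> norm_num
  -- touched faces above `c`
  have htouch : ∀ i x, x ∉ (OE T E) → gpart I (b i) x * e x = U * gpart I (b i) x := by
    intro i x hx
    by_cases h : gpart I (b i) x = 0
    · rw [h]; ring
    · obtain ⟨h1, h2⟩ := hgb i x h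
      have hR := hB.reg i x h2
      have hT : Touch E x := by
        by_contra hc
        exact hx ⟨hNear.face hR, hc⟩
      have h3 := (hNear.near x h1 hR hT).2
      have h4 : e x = U := by
        simp only [he, hU]
        by_cases hup : up
        · rw [if_pos (h3.2 hup), if_pos hup]
        · rw [if_neg (fun h => hup (h3.1 h)), if_neg hup]
      rw [h4]; ring
  -- the good parts
  have h1 : ∀ i, |mass ω (fL (OE T E) (gpart I (b i)) χ (v i)) L -
      U * ∑ x ∈ hO.toFinset, gpart I (b i) x| ≤ K1 * (C0 + 1) * q +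
      ∑ x ∈ hO.toFinset, |fL (OE T E) (gpart I (b i)) χ (v i) x| *
        (if x ∈ N i ∧ TwoVisit (fun _ : Fin 1 => box x (D + 1)) (res V (B x) ω) then 1 else 0) := by
    intro i
    have h := hone T V ω hω W E c I Rg L up hL hNear hE hO hCP (p i) (gpart I (b i)) (N i) ρ d s D
      C0 χ (v i) B (hB.off i) (hB.nb i) (hg0 i) (fun x _ h => hB.near i x (hgb i x h).2)
      (fun x hx h => hB.good i x (hgb i x h).2 (hgb i x h).1 hx) hs hsρ hρd hχ (hv i) hD (hgeo i)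
    refine h.trans (add_le_add ?_ le_rfl)
    have hle : ∑ x ∈ hO.toFinset, gpart I (b i) x ≤ 1 := by
      rw [← hsumb i]
      calc ∑ x ∈ hO.toFinset, gpart I (b i) x ≤ ∑ x ∈ G, gpart I (b i) x :=
            Finset.sum_le_sum_of_subset_of_nonneg hOG (fun x _ _ => hg0 i x)
        _ ≤ ∑ x ∈ G, b i x := Finset.sum_le_sum fun x _ => by
            have := gpart_add_rpart I (b i) x
            have := hr0 i x
            linarith
    have : 0 ≤ K1 * (C0 + 1) * q := by positivity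
    nlinarith
  -- the bad parts
  have h2 : ∀ i, |mass ω (fL (OE T E) (rpart I (b i)) χ (w i)) L| ≤ K2 * (C0 + 1) * (cb * (Bd i).card) := by
    intro i
    have h := hrough (OE T E) hO hCP s C0 cb (rpart I (b i)) (w i) χ (Bd i) hs hχ (hw i) hcb
      (fun x _ => by
        rw [abs_of_nonneg (hr0 i x)]
        by_cases h : rpart I (b i) x = 0
        · rw [h]; exact hcb
        · unfold rpart
          rw [if_neg (hrb i x h).1]
          exact hB.sup i x)
      (fun x _ h => hB.bad i x (hrb i x h).2 (hrb i x h).1)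
      (fun x y hx h hxy => hB.box i x y hx (hrb i y h).2 (hrb i y h).1 hxy) hO.toFinset
    rw [mass_eq_sum (fL_zero_off hO hs hχ (hw i))]
    refine (Finset.abs_sum_le_sum_abs _ _).trans (le_trans (Finset.sum_le_sum fun x _ => ?_) h)
    rw [abs_mul]
    refine mul_le_of_le_one_right (abs_nonneg _) ?_
    split_ifs <;> simp
  -- algebra
  have hlapz : ∀ x, x ∉ hO.toFinset → lap (fun y => χ y * u y) x = 0 := by
    intro x hx
    have h2 := fL_zero_off hO hs hχ hu x hx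
    unfold fL at h2
    rw [Set.Finite.mem_toFinset] at hx
    rw [if_neg hx, zero_add] at h2
    exact h2
  have hfLO : ∀ x ∈ hO.toFinset, (m : ℝ)⁻¹ * ∑ i, b i x = (m : ℝ)⁻¹ *
      ∑ i, (fL (OE T E) (gpart I (b i)) χ (v i) x + fL (OE T E) (rpart I (b i)) χ (w i) x) -
      lap (fun y => χ y * u y) x := by
    intro x hx
    rw [Set.Finite.mem_toFinset] at hx
    have h3 : ∀ i, fL (OE T E) (gpart I (b i)) χ (v i) x + fL (OE T E) (rpart I (b i)) χ (w i) x =
        fL (OE T E) (b i) χ (fun y => v i y + w i y) x := by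
      intro i
      rw [← fL_add]
      congr 1
      funext y; exact gpart_add_rpart I (b i) y
    rw [Finset.sum_congr rfl (fun i _ => h3 i), ← fL_mean, ← huu]
    unfold fL
    rw [if_pos hx]
    ring
  have hmassφ : mass ω (fun x => (m : ℝ)⁻¹ * ∑ i, b i x) L =
      ∑ x ∈ G, ((m : ℝ)⁻¹ * ∑ i, b i x) * e x := mass_eq_sum (fun x hx => by
        rw [Finset.sum_eq_zero (fun i _ => hbG i x hx), mul_zero]) ω L
  have hsplit : ∀ f : Pt → ℝ, ∑ x ∈ G, f x = ∑ x ∈ hO.toFinset, f x + ∑ x ∈ G \ hO.toFinset, f x := by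
    intro f
    rw [← Finset.sum_sdiff hOG, add_comm]
  have hA : mass ω (fun x => (m : ℝ)⁻¹ * ∑ i, b i x) L = (m : ℝ)⁻¹ * ∑ i,
      (mass ω (fL (OE T E) (gpart I (b i)) χ (v i)) L + mass ω (fL (OE T E) (rpart I (b i)) χ (w i)) L +
        U * ∑ x ∈ G \ hO.toFinset, gpart I (b i) x +
        ∑ x ∈ G \ hO.toFinset, rpart I (b i) x * e x) - mass ω (lap (fun y => χ y * u y)) L := by
    rw [hmassφ, hsplit]
    have e1 : ∑ x ∈ hO.toFinset, ((m : ℝ)⁻¹ * ∑ i, b i x) * e x =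
        (m : ℝ)⁻¹ * ∑ i, (mass ω (fL (OE T E) (gpart I (b i)) χ (v i)) L +
          mass ω (fL (OE T E) (rpart I (b i)) χ (w i)) L) - mass ω (lap (fun y => χ y * u y)) L := by
      rw [mass_eq_sum hlapz]
      have e2 : ∀ i, mass ω (fL (OE T E) (gpart I (b i)) χ (v i)) L +
          mass ω (fL (OE T E) (rpart I (b i)) χ (w i)) L = ∑ x ∈ hO.toFinset,
          (fL (OE T E) (gpart I (b i)) χ (v i) x + fL (OE T E) (rpart I (b i)) χ (w i) x) * e x := by
        intro i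
        rw [mass_eq_sum (fL_zero_off hO hs hχ (hv i)), mass_eq_sum (fL_zero_off hO hs hχ (hw i)),
          ← Finset.sum_add_distrib]
        exact Finset.sum_congr rfl fun x _ => by rw [add_mul]
      rw [Finset.sum_congr rfl (fun i _ => e2 i), Finset.sum_comm, Finset.mul_sum,
        ← Finset.sum_sub_distrib]
      apply Finset.sum_congr rfl
      intro x hx
      rw [hfLO x hx, ← Finset.sum_mul, sub_mul]
      ring
    have e3 : ∑ x ∈ G \ hO.toFinset, ((m : ℝ)⁻¹ * ∑ i, b i x) * e x =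
        (m : ℝ)⁻¹ * ∑ i, (U * ∑ x ∈ G \ hO.toFinset, gpart I (b i) x +
          ∑ x ∈ G \ hO.toFinset, rpart I (b i) x * e x) := by
      have e4 : ∀ i, U * ∑ x ∈ G \ hO.toFinset, gpart I (b i) x +
          ∑ x ∈ G \ hO.toFinset, rpart I (b i) x * e x =
          ∑ x ∈ G \ hO.toFinset, b i x * e x := by
        intro i
        rw [Finset.mul_sum, ← Finset.sum_add_distrib]
        apply Finset.sum_congr rfl
        intro x hx
        have hxO : x ∉ (OE T E) := by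
          have := (Finset.mem_sdiff.1 hx).2
          rwa [Set.Finite.mem_toFinset] at this
        rw [← htouch i x hxO, ← add_mul, gpart_add_rpart]
      rw [Finset.sum_congr rfl (fun i _ => e4 i), Finset.sum_comm, Finset.mul_sum]
      apply Finset.sum_congr rfl
      intro x _
      rw [← Finset.sum_mul]
      ring
    rw [e1, e3]
    simp only [Finset.sum_add_distrib, mul_add]
    ring
  have hUe : U = (m : ℝ)⁻¹ * ∑ i : Fin m, U * (∑ x ∈ hO.toFinset, gpart I (b i) x +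
      ∑ x ∈ G \ hO.toFinset, gpart I (b i) x + ∑ x ∈ G, rpart I (b i) x) := by
    have e5 : ∀ i, U * (∑ x ∈ hO.toFinset, gpart I (b i) x +
      ∑ x ∈ G \ hO.toFinset, gpart I (b i) x + ∑ x ∈ G, rpart I (b i) x) = U := by
      intro i
      rw [← hsplit, ← Finset.sum_add_distrib,
        Finset.sum_congr rfl (fun x _ => gpart_add_rpart I (b i) x), hsumb i, mul_one]
    rw [Finset.sum_congr rfl (fun i _ => e5 i), Finset.sum_const, Finset.card_univ,
      Fintype.card_fin, nsmul_eq_mul, ← mul_assoc, inv_mul_cancel₀ hm0.ne', one_mul]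
  have hfin : ∀ i, |(mass ω (fL (OE T E) (gpart I (b i)) χ (v i)) L + mass ω (fL (OE T E) (rpart I (b i)) χ (w i)) L +
        U * ∑ x ∈ G \ hO.toFinset, gpart I (b i) x +
        ∑ x ∈ G \ hO.toFinset, rpart I (b i) x * e x) -
      U * (∑ x ∈ hO.toFinset, gpart I (b i) x +
      ∑ x ∈ G \ hO.toFinset, gpart I (b i) x + ∑ x ∈ G, rpart I (b i) x)| ≤
      K1 * (C0 + 1) * q + ∑ x ∈ hO.toFinset, |fL (OE T E) (gpart I (b i)) χ (v i) x| *
        (if x ∈ N i ∧ TwoVisit (fun _ : Fin 1 => box x (D + 1)) (res V (B x) ω) then 1 else 0) +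
      (K2 * (C0 + 1) + 1) * (cb * (Bd i).card) := by
    intro i
    have a1 := abs_le.1 (h1 i)
    have a2 := abs_le.1 (h2 i)
    have a3 := hsumr i
    have a4 : 0 ≤ ∑ x ∈ G \ hO.toFinset, rpart I (b i) x * e x :=
      Finset.sum_nonneg fun x _ => mul_nonneg (hr0 i x) (he01 x).1
    have a5 : ∑ x ∈ G \ hO.toFinset, rpart I (b i) x * e x ≤ ∑ x ∈ G, rpart I (b i) x := by
      calc ∑ x ∈ G \ hO.toFinset, rpart I (b i) x * e x ≤ ∑ x ∈ G \ hO.toFinset, rpart I (b i) x :=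
            Finset.sum_le_sum fun x _ => mul_le_of_le_one_right (hr0 i x) (he01 x).2
        _ ≤ _ := Finset.sum_le_sum_of_subset_of_nonneg Finset.sdiff_subset (fun x _ _ => hr0 i x)
    have a6 : 0 ≤ ∑ x ∈ G, rpart I (b i) x := Finset.sum_nonneg fun x _ => hr0 i x
    have a7 : 0 ≤ U * ∑ x ∈ G, rpart I (b i) x := mul_nonneg hU01.1 a6
    have a8 : U * ∑ x ∈ G, rpart I (b i) x ≤ ∑ x ∈ G, rpart I (b i) x :=
      mul_le_of_le_one_left a6 hU01.2
    rw [abs_le]
    constructor <;> nlinarith [a1.1, a1.2, a2.1, a2.2]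
  have hcomb : (m : ℝ)⁻¹ * ∑ i, (mass ω (fL (OE T E) (gpart I (b i)) χ (v i)) L +
      mass ω (fL (OE T E) (rpart I (b i)) χ (w i)) L + U * ∑ x ∈ G \ hO.toFinset, gpart I (b i) x +
        ∑ x ∈ G \ hO.toFinset, rpart I (b i) x * e x) - mass ω (lap (fun y => χ y * u y)) L -
      (m : ℝ)⁻¹ * ∑ i : Fin m, U * (∑ x ∈ hO.toFinset, gpart I (b i) x +
      ∑ x ∈ G \ hO.toFinset, gpart I (b i) x + ∑ x ∈ G, rpart I (b i) x) =
      (m : ℝ)⁻¹ * ∑ i, ((mass ω (fL (OE T E) (gpart I (b i)) χ (v i)) L +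
      mass ω (fL (OE T E) (rpart I (b i)) χ (w i)) L + U * ∑ x ∈ G \ hO.toFinset, gpart I (b i) x +
        ∑ x ∈ G \ hO.toFinset, rpart I (b i) x * e x) - U * (∑ x ∈ hO.toFinset, gpart I (b i) x +
      ∑ x ∈ G \ hO.toFinset, gpart I (b i) x + ∑ x ∈ G, rpart I (b i) x)) -
      mass ω (lap (fun y => χ y * u y)) L := by
    rw [Finset.sum_sub_distrib, mul_sub]
    ring
  rw [← hUe, ← hA] at hcomb
  rw [hcomb]
  refine (abs_sub _ _).trans ?_
  rw [abs_mul, abs_of_pos (inv_pos.2 hm0)]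
  have h3 : (m : ℝ)⁻¹ * |∑ i, ((mass ω (fL (OE T E) (gpart I (b i)) χ (v i)) L +
      mass ω (fL (OE T E) (rpart I (b i)) χ (w i)) L + U * ∑ x ∈ G \ hO.toFinset, gpart I (b i) x +
        ∑ x ∈ G \ hO.toFinset, rpart I (b i) x * e x) - U * (∑ x ∈ hO.toFinset, gpart I (b i) x +
      ∑ x ∈ G \ hO.toFinset, gpart I (b i) x + ∑ x ∈ G, rpart I (b i) x))| ≤
      (m : ℝ)⁻¹ * ∑ i, (K1 * (C0 + 1) * q + ∑ x ∈ hO.toFinset, |fL (OE T E) (gpart I (b i)) χ (v i) x| *
        (if x ∈ N i ∧ TwoVisit (fun _ : Fin 1 => box x (D + 1)) (res V (B x) ω) then 1 else 0) +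
      (K2 * (C0 + 1) + 1) * (cb * (Bd i).card)) := by
    apply mul_le_mul_of_nonneg_left _ (inv_pos.2 hm0).le
    exact (Finset.abs_sum_le_sum_abs _ _).trans (Finset.sum_le_sum fun i _ => hfin i)
  have h4 : (m : ℝ)⁻¹ * ∑ i, (K1 * (C0 + 1) * q +
      ∑ x ∈ hO.toFinset, |fL (OE T E) (gpart I (b i)) χ (v i) x| *
        (if x ∈ N i ∧ TwoVisit (fun _ : Fin 1 => box x (D + 1)) (res V (B x) ω) then 1 else 0) +
      (K2 * (C0 + 1) + 1) * (cb * (Bd i).card)) = K1 * (C0 + 1) * q +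
      (m : ℝ)⁻¹ * ∑ i, ∑ x ∈ hO.toFinset, |fL (OE T E) (gpart I (b i)) χ (v i) x| *
        (if x ∈ N i ∧ TwoVisit (fun _ : Fin 1 => box x (D + 1)) (res V (B x) ω) then 1 else 0) +
      (K2 * (C0 + 1) + 1) * (cb * ((m : ℝ)⁻¹ * ∑ i, ((Bd i).card : ℝ))) := by
    rw [Finset.sum_add_distrib, Finset.sum_add_distrib, mul_add, mul_add, Finset.sum_const,
      Finset.card_univ, Fintype.card_fin, nsmul_eq_mul, ← mul_assoc, inv_mul_cancel₀ hm0.ne',
      one_mul, ← Finset.mul_sum, ← Finset.mul_sum]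
    ring
  have hcard : 0 ≤ cb * ((m : ℝ)⁻¹ * ∑ i, ((Bd i).card : ℝ)) :=
    mul_nonneg hcb (mul_nonneg (inv_pos.2 hm0).le (Finset.sum_nonneg fun i _ => Nat.cast_nonneg _))
  have h5 : (K2 * (C0 + 1) + 1) * (cb * ((m : ℝ)⁻¹ * ∑ i, ((Bd i).card : ℝ))) ≤
      (K1 + K2 + 1) * (C0 + 1) * (cb * ((m : ℝ)⁻¹ * ∑ i, ((Bd i).card : ℝ))) := by
    apply mul_le_mul_of_nonneg_right _ hcard
    nlinarith
  have h6 : K1 * (C0 + 1) * q ≤ (K1 + K2 + 1) * (C0 + 1) * q := by
    apply mul_le_mul_of_nonneg_right _ hq0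
    nlinarith
  linarith

end Vale.Agent.P155.S862
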