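import Vale.Agent.P155.S862.Energy
import Vale.Agent.P155.S862.TwoErr

/-!
# P155, TIGHT, (S5): the evaluation off one bad event
-/

namespace Vale.Agent.P155.S862

open Finset SW HT T802 J H904 H12 G45 T905 E4 Skel

open Classical in
/-- **Evaluation of the test function of `c_j` at the times `J ≥ j`, off one bad event.** -/
theorem eval_final : ∃ β : ℝ, 0 < β ∧ ∃ γ : ℝ, 0 < γ ∧ γ ≤ 1 ∧ ∀ a0 p Cc : ℝ, 0 < a0 → 0 < p →
    ∃ C : ℝ, 0 < C ∧ ∀ (R : ℕ) (T : Temp), 1 ≤ R → Fits T R → ∀ (p0 : Pt) (n κ s ρ0 D : ℕ),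
    (R : ℝ) ^ a0 ≤ n → n ≤ R → 6 * κ ≤ n → 5 ≤ κ → 1 ≤ s → 2 * s ≤ κ →
    (s : ℝ) ≤ (n : ℝ) ^ (γ / 512) → 2 * s + 1 ≤ D → (D : ℝ) + 1 ≤ (n : ℝ) ^ (γ / 512) →
    (n : ℝ) ^ (1 - γ ^ 2 / 1024) ≤ ρ0 →
    ∃ Bad : Conf → Prop, Pr T.V Bad ≤ C * (R : ℝ) ^ (-p) ∧
    ∀ (Q : Cap) (t0 yb xa : ℤ) (m d : ℕ), Setup T Q t0 yb xa m κ d ρ0 D → 1 ≤ m → 18 * κ ≤ d →
    (∀ x ∈ Rg Q yb, x ∈ box p0 n ∧ C * ρ0 ≤ dF T.faceSet x) →
    ∀ ω ∈ DD T.V, ¬ Bad ω → ∀ j J : ℕ, 1 ≤ j → j ≤ J → Q.Has T.V t0 ω J →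
    ∀ A ∈ Loops ω, (∃ q ∈ A, q.1 = Q.x0 + 1) → ∀ χ u : Pt → ℝ,
    IsCut (OE T (Q.Ej T.V t0 ω J)) s Cc χ →
    IsGreen (OE T (Q.Ej T.V t0 ω J)) (phi Q T.V t0 xa κ m ω j) u →
    |mass ω (phi Q T.V t0 xa κ m ω j) A - (if upS Q ω (Q.cj T.V t0 ω J) A then 1 else 0)| ≤
      |mass ω (lap (fun y => χ y * u y)) A| +
      C * (((6 * κ : ℕ) + 1 : ℝ) / ((d : ℝ) + 1)) ^ β +
      C * (((n : ℝ) / κ) ^ γ * (n : ℝ) ^ (-(γ ^ 2 / 128))) +
      C * (((κ : ℝ) ^ 2)⁻¹ *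
        ((m : ℝ)⁻¹ * ∑ i : Fin m, ((bad2 Q T.V t0 ω j J xa κ i).card : ℝ))) := by
  obtain ⟨β, hβ, K, hK, hev⟩ := eval_sweep
  obtain ⟨γ, hγ, hγ1, htwo⟩ := two_err
  refine ⟨β, hβ, γ, hγ, hγ1, ?_⟩
  intro a0 p Cc ha0 hp
  obtain ⟨C1, hC1, htwo⟩ := htwo a0 p 576000000 Cc ha0 hp (by norm_num)
  obtain ⟨C, hC⟩ : ∃ C : ℝ, C = C1 + K * (|Cc| + 1) * 16000000 := ⟨_, rfl⟩
  have hK0 : 0 ≤ K * (|Cc| + 1) := by positivity
  have hCpos : 0 < C := by rw [hC]; positivity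
  have hCC1 : C1 ≤ C := by rw [hC]; nlinarith
  have hCK : K * (|Cc| + 1) * 16000000 ≤ C := by rw [hC]; linarith
  refine ⟨C, hCpos, ?_⟩
  intro R T hR hfit p0 n κ s ρ0 D hn hnR hκn hκ hs hsκ hsn hsD hD hρ0
  have h1 := htwo R T hR hfit p0 n (6 * κ) s ρ0 D hn hnR hκn hs (by omega) hsn hD hρ0
  refine ⟨_, h1.trans (mul_le_mul_of_nonneg_right hCC1 (Real.rpow_nonneg (Nat.cast_nonneg _) _)), ?_⟩
  intro Q t0 yb xa m d S hm hκd hRg ω hω hbad j J hj hjJ hH A hA hAl χ u hχ hu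
  have hCc : 0 ≤ Cc := cut_C0_nonneg hχ
  have hκ0 : (0 : ℝ) < κ := by
    have : 0 < κ := by omega
    exact_mod_cast this
  have hm0 : (0 : ℝ) < m := by exact_mod_cast hm
  have g := cj_good hj (has_mono hjJ hH)
  set O := OE T (Q.Ej T.V t0 ω J) with hO
  choose v hv using fun i : Fin m => exists_green (finite_OE T (Q.Ej T.V t0 ω J))
    (gpart (inJ Q T.V t0 ω J) (S743.bump κ (ctr (Q.cj T.V t0 ω j) xa κ i)))
  have h2 := hev T Q t0 yb xa m κ d ρ0 D S ω hω j J hj hjJ hH A hA hAl s Cc χ u v hκ hm hs hsκ hκd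
    hsD hχ hu hv
  refine h2.trans ?_
  -- the two-strand term
  have hn0 : (0 : ℝ) ≤ n := Nat.cast_nonneg _
  have hone : ∀ i : Fin m, ∑ x ∈ (finite_OE T (Q.Ej T.V t0 ω J)).toFinset,
        |fL O (gpart (inJ Q T.V t0 ω J)
          (S743.bump κ (ctr (Q.cj T.V t0 ω j) xa κ i))) χ (v i) x| *
        (if dn (pS (Q.cj T.V t0 ω j) xa κ i) x ≤ d ∧
          TwoVisit (fun _ : Fin 1 => box x (D + 1)) (res T.V (box x ρ0) ω) then 1 else 0) ≤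
      C * (((n : ℝ) / κ) ^ γ * (n : ℝ) ^ (-(γ ^ 2 / 128))) := by
    intro i
    have h3 : ¬ (C1 * (((n : ℝ) / (6 * κ : ℕ)) ^ γ * (n : ℝ) ^ (-(γ ^ 2 / 128))) <
          ∑ x ∈ (box p0 n).filter (fun x => C1 * ρ0 ≤ dF T.faceSet x ∧
            TwoVisit (fun _ : Fin 1 => box x (D + 1)) (res T.V (box x ρ0) ω)),
            |fL O (gpart (inJ Q T.V t0 ω J)
          (S743.bump κ (ctr (Q.cj T.V t0 ω j) xa κ i))) χ (v i) x|) := by
      intro hlt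
      refine hbad ⟨O, pS (Q.cj T.V t0 ω j) xa κ i, _, v i, χ, finite_OE T _,
        T862.cp_OE hω S.h0 J, pS_notMem S hω hj hjJ (has_mono hjJ hH) i.2, hχ, ?_, hv i, hlt⟩
      intro y
      have hdn : ∀ y, 0 ≤ dens 576000000 (pS (Q.cj T.V t0 ω j) xa κ i) (6 * κ) y :=
        dens_nonneg (by norm_num) _ _
      unfold gpart
      split_ifs with hI
      · by_cases h0 : S743.bump κ (ctr (Q.cj T.V t0 ω j) xa κ i) y = 0
        · rw [h0, abs_zero]; exact hdn y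
        · rw [abs_of_nonneg (S743.bump_nonneg _ _ _)]
          refine (S743.bump_le hκ _ _).trans ?_
          have h4 : dn (pS (Q.cj T.V t0 ω j) xa κ i) y ≤ 6 * κ := ctr_dn S hω g i.2 (by
            have hb := S743.bump_supp hκ h0
            rw [mem_box_coord] at *
            push_cast
            omega)
          refine le_trans (le_of_eq ?_) (le_dens (C0 := 576000000) (by norm_num) (by omega) h4)
          push_cast
          field_simp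
          norm_num
      · rw [abs_zero]; exact hdn y
    push Not at h3
    calc _ ≤ ∑ x ∈ (box p0 n).filter (fun x => C1 * ρ0 ≤ dF T.faceSet x ∧
            TwoVisit (fun _ : Fin 1 => box x (D + 1)) (res T.V (box x ρ0) ω)),
            |fL O (gpart (inJ Q T.V t0 ω J)
          (S743.bump κ (ctr (Q.cj T.V t0 ω j) xa κ i))) χ (v i) x| := by
          simp only [mul_ite, mul_one, mul_zero]
          rw [← Finset.sum_filter]
          apply Finset.sum_le_sum_of_subset_of_nonneg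
          · intro x hx
            obtain ⟨_, hx1, hx2⟩ := Finset.mem_filter.1 hx
            have hR := (mid_box S (mid_pS S hω g i.2) hx1).1
            obtain ⟨r1, r2⟩ := hRg x hR
            refine Finset.mem_filter.2 ⟨r1, le_trans ?_ r2, hx2⟩
            exact mul_le_mul_of_nonneg_right hCC1 (Nat.cast_nonneg _)
          · intro x _ _
            exact abs_nonneg _
      _ ≤ C1 * (((n : ℝ) / (6 * κ : ℕ)) ^ γ * (n : ℝ) ^ (-(γ ^ 2 / 128))) := h3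
      _ ≤ _ := by
          have h5 : ((n : ℝ) / (6 * κ : ℕ)) ^ γ ≤ ((n : ℝ) / κ) ^ γ := by
            apply Real.rpow_le_rpow (by positivity) _ hγ.le
            apply div_le_div_of_nonneg_left hn0 hκ0
            push_cast
            linarith
          gcongr
  have htw : (m : ℝ)⁻¹ * ∑ i : Fin m, ∑ x ∈ (finite_OE T (Q.Ej T.V t0 ω J)).toFinset,
        |fL O (gpart (inJ Q T.V t0 ω J)
          (S743.bump κ (ctr (Q.cj T.V t0 ω j) xa κ i))) χ (v i) x| *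
        (if dn (pS (Q.cj T.V t0 ω j) xa κ i) x ≤ d ∧
          TwoVisit (fun _ : Fin 1 => box x (D + 1)) (res T.V (box x ρ0) ω) then 1 else 0) ≤
      C * (((n : ℝ) / κ) ^ γ * (n : ℝ) ^ (-(γ ^ 2 / 128))) := by
    calc _ ≤ (m : ℝ)⁻¹ * ∑ i : Fin m, C * (((n : ℝ) / κ) ^ γ * (n : ℝ) ^ (-(γ ^ 2 / 128))) :=
          mul_le_mul_of_nonneg_left (Finset.sum_le_sum fun i _ => hone i) (inv_pos.2 hm0).le
      _ = _ := by
          rw [Finset.sum_const, Finset.card_univ, Fintype.card_fin, nsmul_eq_mul, ← mul_assoc,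
            inv_mul_cancel₀ hm0.ne', one_mul]
  have hKC : K * (Cc + 1) ≤ C := by
    rw [abs_of_nonneg hCc] at hCK
    nlinarith [mul_nonneg hK.le (by linarith : (0 : ℝ) ≤ Cc + 1)]
  have h6 : K * (Cc + 1) * (((6 * κ : ℕ) + 1 : ℝ) / ((d : ℝ) + 1)) ^ β ≤
      C * (((6 * κ : ℕ) + 1 : ℝ) / ((d : ℝ) + 1)) ^ β :=
    mul_le_mul_of_nonneg_right hKC (by positivity)
  have h7 : K * (Cc + 1) * (16000000 / (κ : ℝ) ^ 2 *
        ((m : ℝ)⁻¹ * ∑ i : Fin m, ((bad2 Q T.V t0 ω j J xa κ i).card : ℝ))) ≤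
      C * (((κ : ℝ) ^ 2)⁻¹ *
        ((m : ℝ)⁻¹ * ∑ i : Fin m, ((bad2 Q T.V t0 ω j J xa κ i).card : ℝ))) := by
    have h8 : 0 ≤ ((κ : ℝ) ^ 2)⁻¹ *
        ((m : ℝ)⁻¹ * ∑ i : Fin m, ((bad2 Q T.V t0 ω j J xa κ i).card : ℝ)) :=
      mul_nonneg (by positivity) (mul_nonneg (inv_pos.2 hm0).le
        (Finset.sum_nonneg fun i _ => Nat.cast_nonneg _))
    rw [abs_of_nonneg hCc] at hCK
    calc _ = (K * (Cc + 1) * 16000000) * (((κ : ℝ) ^ 2)⁻¹ *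
        ((m : ℝ)⁻¹ * ∑ i : Fin m, ((bad2 Q T.V t0 ω j J xa κ i).card : ℝ))) := by ring
      _ ≤ _ := mul_le_mul_of_nonneg_right hCK h8
  exact add_le_add (add_le_add (add_le_add le_rfl h6) htw) h7

end Vale.Agent.P155.S862
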