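import Vale.Agent.P155.S862.Eval2
import Vale.Agent.P155.T802.Strips
import Vale.Agent.P155.T862.Cont
import Vale.Agent.P155.S743.Bump

/-!
# P155, TIGHT, (S5): the evaluation of the test function of `c_j` at the times `j` and `j + 1`
-/

namespace Vale.Agent.P155.S862

open Finset SW HT T802 J H904 H12 G45 T905

variable {T : Temp} {Q : Cap} {t0 yb xa : ℤ} {m κ d ρ0 D : ℕ} {ω : Conf} {j J : ℕ}

theorem finite_OE (T : Temp) (E : Set Pt) : (OE T E).Finite :=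
  (A1.faceSet_finite T).subset fun _ h => h.1

/-- the test function above `c_j` -/
noncomputable def phi (Q : Cap) (V : Finset Pt) (t0 xa : ℤ) (κ m : ℕ) (ω : Conf) (j : ℕ)
    (x : Pt) : ℝ :=
  (m : ℝ)⁻¹ * ∑ i : Fin m, S743.bump κ (ctr (Q.cj V t0 ω j) xa κ i) x

/-- the faces above `c_J` -/
def inJ (Q : Cap) (V : Finset Pt) (t0 : ℤ) (ω : Conf) (J : ℕ) : Set Pt :=
  {f | Q.pr ω (Q.cj V t0 ω J) f = 1}

open Classical in
/-- the faces above the strip `i` of `c_j` which are not above `c_J` -/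
noncomputable def bad2 (Q : Cap) (V : Finset Pt) (t0 : ℤ) (ω : Conf) (j J : ℕ) (xa : ℤ)
    (κ i : ℕ) : Finset Pt :=
  (box (ctr (Q.cj V t0 ω j) xa κ i) (2 * κ)).filter (fun f => f ∉ inJ Q V t0 ω J)

theorem bad2_self (S : Setup T Q t0 yb xa m κ d ρ0 D) (hω : ω ∈ DD T.V) (hj : 1 ≤ j)
    (h : Q.Has T.V t0 ω j) {i : ℕ} (hi : i < m) : bad2 Q T.V t0 ω j j xa κ i = ∅ := by
  classical
  unfold bad2
  rw [Finset.filter_eq_empty_iff]
  intro f hf
  push Not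
  exact (box_in S hω hj h hi hf).1

theorem bad2_card_one (S : Setup T Q t0 yb xa m κ d ρ0 D) (hω : ω ∈ DD T.V) (hj : 1 ≤ j)
    (h : Q.Has T.V t0 ω (j + 1)) {i : ℕ} (hi : i < m) :
    ((bad2 Q T.V t0 ω j (j + 1) xa κ i).card : ℤ) ≤
      ∑ X ∈ Finset.Ico (sa xa κ i) (sa xa κ i + 16 * κ),
        (topE ω (Q.cj T.V t0 ω (j + 1)) X - topE ω (Q.cj T.V t0 ω j) X) := by
  classical
  have h' := has_of_succ h
  have g := cj_good hj h'
  have g' := cj_good (by omega : 1 ≤ j + 1) h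
  obtain ⟨_, h2, h3, h4⟩ := strip_spec S hω g hi
  obtain ⟨r1, r2⟩ := sa_range S hi
  have s1 := S.left
  have s2 := S.right
  have s3 := S.κ1
  set K := Q.cj T.V t0 ω j with hK
  set K' := Q.cj T.V t0 ω (j + 1) with hK'
  have hsub : bad2 Q T.V t0 ω j (j + 1) xa κ i ⊆
      (Finset.Icc (sa xa κ i + 2 * κ) (sa xa κ i + 6 * κ)).biUnion (fun X =>
        (Finset.Ico (hgt K xa κ i + 2 * κ) (topE ω K' X)).image (fun y => (X, y))) := by
    intro f hf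
    unfold bad2 at hf
    rw [mem_filter] at hf
    have hb := ctr_box hf.1
    have hR := ctr_Rg S hω g hi hf.1
    rw [mem_biUnion]
    refine ⟨f.1, mem_Icc.2 ⟨hb.1, hb.2.1⟩, mem_image.2 ⟨f.2, mem_Ico.2 ⟨hb.2.2.1, ?_⟩, rfl⟩⟩
    by_contra hcon
    exact hf.2 (g'.above hω hR.1 hR.2.1 hR.2.2.2 (by omega))
  have hgap : ∀ X ∈ Finset.Ico (sa xa κ i) (sa xa κ i + 16 * κ),
      0 ≤ topE ω K' X - topE ω K X := by
    intro X hX
    rw [mem_Ico] at hX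
    have : topE ω K X < topE ω K' X :=
      sk_top hω S.h0 S.ht hj (Nat.lt_succ_self j) h (x := X) (by omega) (by omega)
    omega
  calc ((bad2 Q T.V t0 ω j (j + 1) xa κ i).card : ℤ)
      ≤ (((Finset.Icc (sa xa κ i + 2 * κ) (sa xa κ i + 6 * κ)).biUnion (fun X =>
        (Finset.Ico (hgt K xa κ i + 2 * κ) (topE ω K' X)).image (fun y => (X, y)))).card : ℤ) := by
        exact_mod_cast Finset.card_le_card hsub
    _ ≤ ((∑ X ∈ Finset.Icc (sa xa κ i + 2 * κ) (sa xa κ i + 6 * κ),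
        ((Finset.Ico (hgt K xa κ i + 2 * κ) (topE ω K' X)).image
          (fun y => ((X, y) : Pt))).card : ℕ) : ℤ) := by
        exact_mod_cast Finset.card_biUnion_le
    _ ≤ ∑ X ∈ Finset.Icc (sa xa κ i + 2 * κ) (sa xa κ i + 6 * κ),
        (topE ω K' X - topE ω K X) := by
        push_cast
        refine Finset.sum_le_sum (fun X hX => ?_)
        rw [mem_Icc] at hX
        have e1 : (((Finset.Ico (hgt K xa κ i + 2 * κ) (topE ω K' X)).image
            (fun y => ((X, y) : Pt))).card : ℤ) ≤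
            ((topE ω K' X - (hgt K xa κ i + 2 * κ)).toNat : ℤ) := by
          rw [← Int.card_Ico]
          exact_mod_cast Finset.card_image_le
        have e2 := hgap X (mem_Ico.2 ⟨by omega, by omega⟩)
        obtain ⟨h5, _⟩ := g.topE_spec hω (x := X) (by omega) (by omega)
        have e3 : topE ω K X ≤ hgt K xa κ i := by
          rcases h5.1 with h6 | h6
          · exact h2 _ _ (by omega) (by omega) h6
          · exact h2 _ _ (by omega) (by omega) h6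
        omega
    _ ≤ _ := by
        refine Finset.sum_le_sum_of_subset_of_nonneg ?_ (fun X hX _ => hgap X hX)
        intro X hX
        rw [mem_Icc] at hX
        rw [mem_Ico]
        omega

/-- the bad parts are small -/
theorem bad2_card (S : Setup T Q t0 yb xa m κ d ρ0 D) (hω : ω ∈ DD T.V) (hj : 1 ≤ j)
    (h : Q.Has T.V t0 ω (j + 1)) :
    (∑ i : Fin m, ((bad2 Q T.V t0 ω j (j + 1) xa κ i).card : ℝ)) ≤
      (gapD Q T.V t0 ω j xa (xa + 16 * κ * m) : ℤ) := by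
  have h1 : (∑ i ∈ Finset.range m, ((bad2 Q T.V t0 ω j (j + 1) xa κ i).card : ℤ)) ≤
      gapD Q T.V t0 ω j xa (xa + 16 * κ * m) := by
    unfold gapD
    rw [← sum_strips κ xa m]
    exact Finset.sum_le_sum (fun i hi => bad2_card_one S hω hj h (mem_range.1 hi))
  have h2 : (∑ i : Fin m, ((bad2 Q T.V t0 ω j (j + 1) xa κ i).card : ℝ)) =
      ((∑ i ∈ Finset.range m, ((bad2 Q T.V t0 ω j (j + 1) xa κ i).card : ℤ) : ℤ) : ℝ) := by
    push_cast
    rw [Finset.sum_range]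
  rw [h2]
  exact_mod_cast h1

/-- no step between `inJ` and its complement inside a box of unexplored faces of the region -/
theorem box_const (hω : ω ∈ DD T.V) (hJ : 1 ≤ J) (h : Q.Has T.V t0 ω J) {x : Pt} {s : ℕ}
    (hO : ∀ z, dn x z < s → z ∈ OE T (Q.Ej T.V t0 ω J)) (hR : ∀ z, dn x z < s → z ∈ Rg Q yb)
    {y : Pt} (hy : dn x y < s) :
    Q.pr ω (Q.cj T.V t0 ω J) y = Q.pr ω (Q.cj T.V t0 ω J) x := by
  have hb : ∀ z, Btw x y z → dn x z ≤ dn x y := by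
    intro z hz
    obtain ⟨h1, h2⟩ := hz
    have h3 := dn_le' (le_refl (dn x y))
    rw [T802.dn_le_iff]
    omega
  refine walk (P := fun z => Q.pr ω (Q.cj T.V t0 ω J) z = Q.pr ω (Q.cj T.V t0 ω J) x) rfl
    (l1 x y) y rfl (fun z z' ha hz hz' _ hP => ?_)
  have a1 := lt_of_le_of_lt (hb z hz) hy
  have a2 := lt_of_le_of_lt (hb z' hz') hy
  rw [← in_step hω hJ h (hR z a1) (hR z' a2) ha (hO z a1)]
  exact hP

/-- **the test system** of `c_j` at time `J ∈ {j, j + 1}` -/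
theorem sys (S : Setup T Q t0 yb xa m κ d ρ0 D) (hω : ω ∈ DD T.V) (hj : 1 ≤ j) (hjJ : j ≤ J)
    (h : Q.Has T.V t0 ω J) {s : ℕ} (hκ : 5 ≤ κ) (hsκ : 2 * s ≤ κ) :
    BumpSys2 (OE T (Q.Ej T.V t0 ω J)) (inJ Q T.V t0 ω J) (Rg Q yb) s
      (fun i : Fin m => pS (Q.cj T.V t0 ω j) xa κ i)
      (fun i : Fin m => S743.bump κ (ctr (Q.cj T.V t0 ω j) xa κ i))
      (fun i : Fin m => box (ctr (Q.cj T.V t0 ω j) xa κ i) κ)
      (fun i : Fin m => reach (OE T (Q.Ej T.V t0 ω J)) (pS (Q.cj T.V t0 ω j) xa κ i) d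
        ({f | f ∈ box (ctr (Q.cj T.V t0 ω j) xa κ i) (2 * κ)} ∩ inJ Q T.V t0 ω J))
      (fun i : Fin m => bad2 Q T.V t0 ω j J xa κ i) (6 * κ) d (16000000 / (κ : ℝ) ^ 2) := by
  classical
  have hjH : Q.Has T.V t0 ω j := has_mono hjJ h
  have g := cj_good hj hjH
  have hbox2 : ∀ (i : Fin m) (x : Pt), x ∈ box (ctr (Q.cj T.V t0 ω j) xa κ i) κ →
      x ∈ box (ctr (Q.cj T.V t0 ω j) xa κ i) (2 * κ) := by
    intro i x hx
    rw [mem_box_coord] at *
    push_cast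
    omega
  constructor
  · intro i
    exact pS_notMem S hω hj hjJ hjH i.2
  · intro i x
    exact S743.bump_nonneg _ _ _
  · intro i x
    exact S743.bump_le hκ _ _
  · intro i x hx
    exact S743.bump_supp hκ hx
  · intro i x hx
    exact ctr_Rg S hω g i.2 (hbox2 i x (S743.bump_supp hκ hx))
  · intro i
    exact S743.bump_sum hκ _ (Finset.Subset.refl _)
  · intro i x hx
    exact ctr_dn S hω g i.2 (hbox2 i x (S743.bump_supp hκ hx))
  · intro i x hx hI hO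
    have hb := hbox2 i x (S743.bump_supp hκ hx)
    exact mem_reach ⟨hb, hI⟩ hO ((ctr_dn S hω g i.2 hb).trans S.κd)
  · intro i
    exact isNb_reach _ _ _ _
  · intro i x hx hI
    exact Finset.mem_filter.2 ⟨hbox2 i x (S743.bump_supp hκ hx), hI⟩
  · intro i x y hxs hy hyI hxy z hz
    have hyb := S743.bump_supp hκ hy
    have hin : ∀ z', dn x z' < s → z' ∈ box (ctr (Q.cj T.V t0 ω j) xa κ i) (2 * κ) := by
      intro z' hz'
      have a1 := dn_le' hz'.le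
      have a2 := dn_le' hxy.le
      rw [mem_box_coord] at *
      push_cast
      omega
    have hO : ∀ z', dn x z' < s → z' ∈ OE T (Q.Ej T.V t0 ω J) :=
      fun z' hz' => mem_of_lt_dF (lt_of_lt_of_le hz' hxs)
    have hR : ∀ z', dn x z' < s → z' ∈ Rg Q yb := fun z' hz' => ctr_Rg S hω g i.2 (hin z' hz')
    have hJ1 : 1 ≤ J := hj.trans hjJ
    refine Finset.mem_filter.2 ⟨hin z hz, fun hzI => hyI ?_⟩
    unfold inJ at *
    rw [Set.mem_ofPred_eq] at *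
    rw [box_const hω hJ1 h hO hR hxy, ← box_const hω hJ1 h hO hR hz]
    exact hzI

open Classical in
/-- **the evaluation of the test function of `c_j` at time `J ∈ {j, j + 1}`** -/
theorem eval_sweep : ∃ β : ℝ, 0 < β ∧ ∃ K : ℝ, 0 < K ∧
    ∀ (T : Temp) (Q : Cap) (t0 yb xa : ℤ) (m κ d ρ0 D : ℕ), Setup T Q t0 yb xa m κ d ρ0 D →
    ∀ ω ∈ DD T.V, ∀ j J : ℕ, 1 ≤ j → j ≤ J → Q.Has T.V t0 ω J →
    ∀ A ∈ Loops ω, (∃ q ∈ A, q.1 = Q.x0 + 1) →
    ∀ (s : ℕ) (C0 : ℝ) (χ u : Pt → ℝ) (v : Fin m → Pt → ℝ), 5 ≤ κ → 1 ≤ m → 1 ≤ s → 2 * s ≤ κ →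
    18 * κ ≤ d → 2 * s + 1 ≤ D →
    IsCut (OE T (Q.Ej T.V t0 ω J)) s C0 χ →
    IsGreen (OE T (Q.Ej T.V t0 ω J)) (phi Q T.V t0 xa κ m ω j) u →
    (∀ i : Fin m, IsGreen (OE T (Q.Ej T.V t0 ω J)) (gpart (inJ Q T.V t0 ω J)
      (S743.bump κ (ctr (Q.cj T.V t0 ω j) xa κ i))) (v i)) →
    |mass ω (phi Q T.V t0 xa κ m ω j) A - (if upS Q ω (Q.cj T.V t0 ω J) A then 1 else 0)| ≤
      |mass ω (lap (fun y => χ y * u y)) A| +
      K * (C0 + 1) * (((6 * κ : ℕ) + 1 : ℝ) / ((d : ℝ) + 1)) ^ β +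
      (m : ℝ)⁻¹ * ∑ i : Fin m, ∑ x ∈ (finite_OE T (Q.Ej T.V t0 ω J)).toFinset,
        |fL (OE T (Q.Ej T.V t0 ω J)) (gpart (inJ Q T.V t0 ω J)
          (S743.bump κ (ctr (Q.cj T.V t0 ω j) xa κ i))) χ (v i) x| *
        (if dn (pS (Q.cj T.V t0 ω j) xa κ i) x ≤ d ∧
          TwoVisit (fun _ : Fin 1 => box x (D + 1)) (res T.V (box x ρ0) ω) then 1 else 0) +
      K * (C0 + 1) * (16000000 / (κ : ℝ) ^ 2 *
        ((m : ℝ)⁻¹ * ∑ i : Fin m, ((bad2 Q T.V t0 ω j J xa κ i).card : ℝ))) := by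
  obtain ⟨β, hβ, K, hK, hev⟩ := eval_det2
  refine ⟨β, hβ, K, hK, ?_⟩
  intro T Q t0 yb xa m κ d ρ0 D S ω hω j J hj hjJ hH A hA hAl s C0 χ u v hκ hm hs hsκ hκd hD hχ hu hv
  have hJ1 : 1 ≤ J := hj.trans hjJ
  have hjH : Q.Has T.V t0 ω j := has_mono hjJ hH
  have g := cj_good hj hjH
  have h := hev T T.V ω hω Q.W (Q.Ej T.V t0 ω J) (Q.cj T.V t0 ω J) (inJ Q T.V t0 ω J) (Rg Q yb) A
    (upS Q ω (Q.cj T.V t0 ω J) A) hA (near_j S hω hJ1 hH hA) (Ej_closed hω J)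
    (finite_OE T (Q.Ej T.V t0 ω J)) (T862.cp_OE hω S.h0 J) m
    (fun i : Fin m => pS (Q.cj T.V t0 ω j) xa κ i)
    (fun i : Fin m => S743.bump κ (ctr (Q.cj T.V t0 ω j) xa κ i))
    (fun i : Fin m => box (ctr (Q.cj T.V t0 ω j) xa κ i) κ)
    (fun i : Fin m => reach (OE T (Q.Ej T.V t0 ω J)) (pS (Q.cj T.V t0 ω j) xa κ i) d
      ({f | f ∈ box (ctr (Q.cj T.V t0 ω j) xa κ i) (2 * κ)} ∩ inJ Q T.V t0 ω J))
    (fun i : Fin m => bad2 Q T.V t0 ω j J xa κ i) (6 * κ) d s D (16000000 / (κ : ℝ) ^ 2) C0 χ u v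
    (fun x => box x ρ0) hm (by positivity) (sys S hω hj hjJ hH hκ hsκ) hs (by omega) (by omega)
    hχ hu hv hD (fun i x hx => reach_geo S hω hJ1 hH (mid_pS S hω g i.2) (fun f hf => hf.2) hAl hx
      (Finset.Subset.refl _))
  refine h.trans ?_
  gcongr with i _ x _
  by_cases hx : x ∈ reach (OE T (Q.Ej T.V t0 ω J)) (pS (Q.cj T.V t0 ω j) xa κ i) d
      ({f | f ∈ box (ctr (Q.cj T.V t0 ω j) xa κ i) (2 * κ)} ∩ inJ Q T.V t0 ω J)
  · have hd := (isNb_reach _ _ _ _).box x hx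
    simp only [hx, hd, true_and]
    exact le_rfl
  · simp only [hx, false_and, if_false]
    split_ifs <;> norm_num

end Vale.Agent.P155.S862
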