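import Vale.Agent.P155.H904.PT3

/-!
# P155, TIGHT: mass of the layer function of a density which is not smooth

`fL_rough`: if the support of `φ` (bounded by `c`) is contained in a set `B` which is a union of
boxes of radius `s` at depth `≥ s`, then the total mass of the layer function is at most
`K (C0 + 1) c |B|`.
-/

namespace Vale.Agent.P155.S862

open Finset Vale.Agent.P155 Vale.Agent.P155.G45 Vale.Agent.P155.J Vale.Agent.P155.H12

theorem fL_rough : ∃ K : ℝ, 0 < K ∧ ∀ (O : Set Pt), O.Finite → CPr O → ∀ (s : ℕ) (C0 c : ℝ)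
      (φ u χ : Pt → ℝ) (B : Finset Pt), 1 ≤ s → IsCut O s C0 χ → IsGreen O φ u → 0 ≤ c →
      (∀ x ∈ O, |φ x| ≤ c) → (∀ x ∈ O, φ x ≠ 0 → x ∈ B) →
      (∀ x y, s ≤ dF O x → φ y ≠ 0 → dn x y < s → ∀ z, dn x z < s → z ∈ B) →
      ∀ S : Finset Pt, ∑ x ∈ S, |fL O φ χ u x| ≤ K * (C0 + 1) * (c * B.card) := by
  classical
  obtain ⟨β, hβ, hSD, -⟩ := G1.decay
  obtain ⟨A, hA, hfl⟩ := fL_bound hβ (by norm_num) hSD
  obtain ⟨D, hD, hvis⟩ := visits_local hβ (by norm_num) hSD
  refine ⟨100 * A * (D + 2), by positivity, ?_⟩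
  intro O hO hCP s C0 c φ u χ B hs hχ hu hc hφc hφB hbox S
  have hC0 := cut_C0_nonneg hχ
  have hs0 : (0 : ℝ) < s := by exact_mod_cast hs
  have hOq : ∃ q, q ∉ O := exists_notMem hO
  -- dominating potential
  set ψ : Pt → ℝ := fun x => if x ∈ B then c else 0 with hψ
  have hψ0 : ∀ x, 0 ≤ ψ x := fun x => by simp only [hψ]; split_ifs <;> simp [hc]
  obtain ⟨ub, hub⟩ := exists_green hO ψ
  have hub0 := green_nonneg hO hub (fun x _ => hψ0 x)
  have hφψ : ∀ x ∈ O, |φ x| ≤ ψ x := by
    intro x hx
    by_cases h : φ x = 0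
    · rw [h, abs_zero]; exact hψ0 x
    · simp only [hψ, if_pos (hφB x hx h)]; exact hφc x hx
  have hdom : ∀ y, |u y| ≤ ub y := abs_green_le hO hu hub hφψ
  -- the potential of `|φ|`
  obtain ⟨ua, hua⟩ := exists_green hO (fun x => |φ x|)
  have hua0 := green_nonneg hO hua (fun x _ => abs_nonneg _)
  have hdoma : ∀ y, |u y| ≤ ua y := abs_green_le hO hu hua (fun x _ => le_rfl)
  have haub : ∀ y, |ua y| ≤ ub y := abs_green_le hO hua hub (fun x hx => by
    rw [abs_abs]; exact hφψ x hx)
  set S' := S.filter (fun x => s ≤ dF O x ∧ dF O x ≤ 2 * s) with hS'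
  -- pointwise bound
  have hpt : ∀ x ∈ S, |fL O φ χ u x| ≤ (if x ∈ S' then 100 * A * (C0 + 1) * (ub x / s ^ 2) else 0) +
      (if x ∈ B then 100 * A * (C0 + 1) * c else 0) := by
    intro x hx
    have hq : 0 ≤ 100 * A * (C0 + 1) := by positivity
    have hr1 : 0 ≤ (if x ∈ S' then 100 * A * (C0 + 1) * (ub x / s ^ 2) else 0) := by
      split_ifs
      · have := hub0 x
        positivity
      · exact le_rfl
    have hr2 : 0 ≤ (if x ∈ B then 100 * A * (C0 + 1) * c else 0) := by
      split_ifs
      · positivity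
      · exact le_rfl
    by_cases h0 : fL O φ χ u x = 0
    · rw [h0, abs_zero]
      positivity
    obtain ⟨hxO, hx2⟩ := fL_supp hOq hs hχ hu h0
    rcases Nat.lt_or_ge (dF O x) s with hlt | hge
    · have hfx := fL_below (φ := φ) (u := u) hOq hχ hxO hlt
      have hφx : φ x ≠ 0 := by rw [← hfx]; exact h0
      rw [hfx]
      have hxB := hφB x hxO hφx
      rw [if_pos hxB]
      have h1 : c ≤ 100 * A * (C0 + 1) * c := by
        have : 1 ≤ 100 * A * (C0 + 1) := by nlinarith
        nlinarith
      have := hφc x hxO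
      linarith
    · have hxS' : x ∈ S' := Finset.mem_filter.2 ⟨hx, hge, hx2⟩
      rw [if_pos hxS']
      by_cases hsrc : ∃ y, dn x y < s ∧ φ y ≠ 0
      · obtain ⟨y, hy, hφy⟩ := hsrc
        have hall := hbox x y hge hφy hy
        have hxB : x ∈ B := hall x (by rw [dn_self]; omega)
        rw [if_pos hxB]
        have h1 := hfl O s C0 χ φ u ub c x hOq hs hχ hu hge hc hdom
          (fun z hz => by
            rw [hub.eq z (mem_of_lt_dF (lt_of_lt_of_le hz hge))]
            simp only [hψ, if_pos (hall z hz)])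
          (fun z hz => hφc z (mem_of_lt_dF (lt_of_lt_of_le hz hge)))
        calc |fL O φ χ u x| ≤ 100 * A * (C0 + 1) * (ub x / s ^ 2 + c) := h1
          _ = _ := by ring
      · push Not at hsrc
        have h1 := hfl O s C0 χ φ u ua 0 x hOq hs hχ hu hge le_rfl hdoma
          (fun z hz => by
            rw [hua.eq z (mem_of_lt_dF (lt_of_lt_of_le hz hge)), hsrc z hz, abs_zero])
          (fun z hz => by rw [hsrc z hz, abs_zero])
        rw [add_zero] at h1
        have h2 : ua x ≤ ub x := (le_abs_self _).trans (haub x)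
        have h3 : 100 * A * (C0 + 1) * (ua x / s ^ 2) ≤ 100 * A * (C0 + 1) * (ub x / s ^ 2) := by
          gcongr
        linarith
  -- visits
  have h2 := hvis O hO hCP s hs S' ψ ub (fun _ => 1) (fun x hx => (Finset.mem_filter.1 hx).2.2) hub
    (fun x _ => hψ0 x) (fun _ => zero_le_one) (fun x _ _ => by rw [lap_const])
    (fun _ _ => le_rfl)
  have h3 : ∑ x ∈ hO.toFinset, ψ x * 1 ≤ c * B.card := by
    simp only [mul_one, hψ]
    rw [← Finset.sum_filter, Finset.sum_const, nsmul_eq_mul, mul_comm]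
    apply mul_le_mul_of_nonneg_left _ hc
    exact_mod_cast Finset.card_le_card (fun x hx => (Finset.mem_filter.1 hx).2)
  calc ∑ x ∈ S, |fL O φ χ u x|
      ≤ ∑ x ∈ S, ((if x ∈ S' then 100 * A * (C0 + 1) * (ub x / s ^ 2) else 0) +
          (if x ∈ B then 100 * A * (C0 + 1) * c else 0)) := Finset.sum_le_sum hpt
    _ = 100 * A * (C0 + 1) / s ^ 2 * ∑ x ∈ S', ub x +
          ∑ x ∈ S, (if x ∈ B then 100 * A * (C0 + 1) * c else 0) := by
        rw [Finset.sum_add_distrib]
        congr 1
        rw [← Finset.sum_filter, Finset.mul_sum]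
        apply Finset.sum_congr
        · ext x
          simp only [Finset.mem_filter]
          constructor
          · rintro ⟨_, h⟩; exact h
          · intro h; exact ⟨(Finset.mem_filter.1 h).1, h⟩
        · intro x _
          ring
    _ ≤ 100 * A * (C0 + 1) / s ^ 2 * (D * (s : ℝ) ^ 2 * (c * B.card)) +
          100 * A * (C0 + 1) * c * B.card := by
        apply add_le_add
        · apply mul_le_mul_of_nonneg_left _ (by positivity)
          exact h2.trans (mul_le_mul_of_nonneg_left h3 (by positivity))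
        · rw [← Finset.sum_filter, Finset.sum_const, nsmul_eq_mul, mul_comm]
          apply mul_le_mul_of_nonneg_left _ (by positivity)
          exact_mod_cast Finset.card_le_card (fun x hx => (Finset.mem_filter.1 hx).2)
    _ = 100 * A * (D + 1) * (C0 + 1) * (c * B.card) := by
        field_simp
    _ ≤ _ := by
        have : 0 ≤ c * (B.card : ℝ) := by positivity
        gcongr
        linarith

end Vale.Agent.P155.S862
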